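import Vale.Agent.H64.LAB.Defs

/-!
# Saint-Raymond's lemma for down-closed convex sets in the orthant (P248, LAB project)

`adual L = {y ≥ 0 | ⟨x, y⟩ ≤ 1 for all x ∈ L}`.  For a closed convex set `L` in the closed
orthant of `ℝ^n` that is closed under the coordinate projections, bounded and contains a cube
`[0, ε]^n` (`Good L`), we prove `1 ≤ n! * vol L * vol (adual L)` by induction on `n`, from the
cone inequality, which enters as the hypothesis `ConeIneq`.
-/

open MeasureTheory Vale.Agent.H64.LAB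

namespace Vale.Agent.H67.LAB

/-- The section of a set by the coordinate hyperplane `x i = 0`. -/
def sec {n : ℕ} (i : Fin (n + 1)) (S : Set (Fin (n + 1) → ℝ)) : Set (Fin n → ℝ) :=
  {k | (Fin.insertNth i (0 : ℝ) k : Fin (n + 1) → ℝ) ∈ S}

/-- The cone inequality, as a hypothesis: for a measurable convex set `S` in the closed orthant of
`ℝ^(n+1)` and a point `x ∈ S`, `∑ i, x i * vol (section of S by x i = 0) ≤ (n+1) * vol S`.
It is proved separately (cone file of the project). -/
def ConeIneq : Prop :=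
  ∀ (n : ℕ) (S : Set (Fin (n + 1) → ℝ)), MeasurableSet S → Convex ℝ S →
    (∀ y ∈ S, ∀ j, 0 ≤ y j) → ∀ x ∈ S,
    (∑ i, ENNReal.ofReal (x i) *
        volume {k : Fin n → ℝ | (Fin.insertNth i (0 : ℝ) k : Fin (n + 1) → ℝ) ∈ S})
      ≤ ((n + 1 : ℕ) : ENNReal) * volume S

theorem adual_isClosed {n : ℕ} (L : Set (Fin n → ℝ)) : IsClosed (adual L) := by
  have h1 : adual L = (⋂ i, {y : Fin n → ℝ | 0 ≤ y i}) ∩
      ⋂ x ∈ L, {y : Fin n → ℝ | ∑ i, x i * y i ≤ 1} := by
    ext y
    simp [adual]
  rw [h1]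
  refine IsClosed.inter (isClosed_iInter fun i => ?_) (isClosed_biInter fun x _ => ?_)
  · exact isClosed_le continuous_const (continuous_apply i)
  · exact isClosed_le (continuous_finsetSum _ fun i _ =>
      continuous_const.mul (continuous_apply i)) continuous_const

theorem adual_convex {n : ℕ} (L : Set (Fin n → ℝ)) : Convex ℝ (adual L) := by
  intro y hy y' hy' a b ha hb hab
  refine ⟨fun i => ?_, fun x hx => ?_⟩
  · have h1 := hy.1 i
    have h2 := hy'.1 i
    simp only [Pi.add_apply, Pi.smul_apply, smul_eq_mul]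
    positivity
  · have h1 := hy.2 x hx
    have h2 := hy'.2 x hx
    have h3 : ∑ i, x i * (a • y + b • y') i
        = a * ∑ i, x i * y i + b * ∑ i, x i * y' i := by
      rw [Finset.mul_sum, Finset.mul_sum, ← Finset.sum_add_distrib]
      refine Finset.sum_congr rfl fun i _ => ?_
      simp only [Pi.add_apply, Pi.smul_apply, smul_eq_mul]
      ring
    rw [h3]
    nlinarith

theorem sum_insertNth {n : ℕ} (i : Fin (n + 1)) (x : Fin (n + 1) → ℝ) (k : Fin n → ℝ) :
    ∑ j, x j * (Fin.insertNth i (0 : ℝ) k : Fin (n + 1) → ℝ) j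
      = ∑ j : Fin n, x (i.succAbove j) * k j := by
  rw [Fin.sum_univ_succAbove _ i]
  simp

theorem sec_adual {n : ℕ} (i : Fin (n + 1)) (L : Set (Fin (n + 1) → ℝ))
    (hdown : ∀ x ∈ L, ∀ i, Function.update x i 0 ∈ L) :
    sec i (adual L) = adual (sec i L) := by
  ext k
  constructor
  · rintro ⟨hk0, hk⟩
    refine ⟨fun j => ?_, fun m hm => ?_⟩
    · have := hk0 (i.succAbove j)
      simpa using this
    · have h := hk _ hm
      rw [sum_insertNth] at h
      simpa using h
  · rintro ⟨hk0, hk⟩
    refine ⟨fun j => ?_, fun x hx => ?_⟩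
    · refine Fin.succAboveCases i ?_ (fun j' => ?_) j
      · simp
      · simpa using hk0 j'
    · rw [sum_insertNth]
      have hm : (fun j : Fin n => x (i.succAbove j)) ∈ sec i L := by
        have h := hdown x hx i
        have e : (Fin.insertNth i (0 : ℝ) (fun j : Fin n => x (i.succAbove j))
            : Fin (n + 1) → ℝ) = Function.update x i 0 := by
          exact Fin.insertNth_removeNth i (0 : ℝ) x
        show (Fin.insertNth i (0 : ℝ) (fun j : Fin n => x (i.succAbove j))
            : Fin (n + 1) → ℝ) ∈ L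
        rw [e]
        exact h
      exact hk _ hm

theorem sec_good {n : ℕ} (i : Fin (n + 1)) (L : Set (Fin (n + 1) → ℝ)) (hL : Good L) :
    Good (sec i L) := by
  obtain ⟨hcl, hconv, hnn, hdown, ⟨R, hR⟩, ⟨ε, hε, hcube⟩⟩ := hL
  refine ⟨?_, ?_, ?_, ?_, ⟨R, ?_⟩, ⟨ε, hε, ?_⟩⟩
  · have hcont : Continuous
        (fun k : Fin n → ℝ => (Fin.insertNth i (0 : ℝ) k : Fin (n + 1) → ℝ)) :=
      Continuous.finInsertNth i continuous_const continuous_id
    exact hcl.preimage hcont
  · intro k hk k' hk' a b ha hb hab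
    show (Fin.insertNth i (0 : ℝ) (a • k + b • k') : Fin (n + 1) → ℝ) ∈ L
    have e : (Fin.insertNth i (0 : ℝ) (a • k + b • k') : Fin (n + 1) → ℝ)
        = a • (Fin.insertNth i (0 : ℝ) k : Fin (n + 1) → ℝ)
          + b • (Fin.insertNth i (0 : ℝ) k' : Fin (n + 1) → ℝ) := by
      ext j
      refine Fin.succAboveCases i ?_ (fun j' => ?_) j
      · simp
      · simp
    rw [e]
    exact hconv hk hk' ha hb hab
  · intro k hk j
    have := hnn _ hk (i.succAbove j)
    simpa using this
  · intro k hk j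
    show (Fin.insertNth i (0 : ℝ) (Function.update k j 0) : Fin (n + 1) → ℝ) ∈ L
    rw [Fin.insertNth_update]
    exact hdown _ hk _
  · intro k hk j
    have := hR _ hk (i.succAbove j)
    simpa using this
  · intro k hk
    apply hcube
    intro j
    refine Fin.succAboveCases i ?_ (fun j' => ?_) j
    · simp [hε.le]
    · simpa using hk j'

theorem good_volume_pos {n : ℕ} (L : Set (Fin n → ℝ)) (hL : Good L) : 0 < volume L := by
  obtain ⟨_, _, _, _, _, ⟨ε, hε, hcube⟩⟩ := hL
  have hsub : Set.Icc (0 : Fin n → ℝ) (fun _ => ε) ⊆ L := by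
    intro x hx
    exact hcube x (fun i => ⟨hx.1 i, hx.2 i⟩)
  have hv : 0 < volume (Set.Icc (0 : Fin n → ℝ) (fun _ => ε)) := by
    rw [Real.volume_Icc_pi, pos_iff_ne_zero, Finset.prod_ne_zero_iff]
    intro i _
    simp [hε]
  exact lt_of_lt_of_le hv (measure_mono hsub)

theorem good_volume_lt_top {n : ℕ} (L : Set (Fin n → ℝ)) (hL : Good L) : volume L < ⊤ := by
  obtain ⟨_, _, hnn, _, ⟨R, hR⟩, _⟩ := hL
  have hsub : L ⊆ Set.Icc (0 : Fin n → ℝ) (fun _ => R) :=
    fun x hx => ⟨fun i => hnn x hx i, fun i => hR x hx i⟩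
  refine lt_of_le_of_lt (measure_mono hsub) ?_
  rw [Real.volume_Icc_pi]
  exact ENNReal.prod_lt_top (fun i _ => ENNReal.ofReal_lt_top)

theorem saint_raymond_zero (L : Set (Fin 0 → ℝ)) (hL : Good L) :
    1 ≤ ((Nat.factorial 0 : ℕ) : ENNReal) * volume L * volume (adual L) := by
  have hL' : L = Set.univ := by
    obtain ⟨_, _, _, _, _, ⟨ε, hε, hcube⟩⟩ := hL
    ext x
    simp only [Set.mem_univ, iff_true]
    exact hcube x (fun i => i.elim0)
  have hA : adual L = Set.univ := by
    ext y
    simp [adual]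
  have hu : volume (Set.univ : Set (Fin 0 → ℝ)) = 1 := by
    rw [volume_pi, Measure.pi_of_empty]
    simp
  rw [hA, hL', hu]
  simp

theorem saint_raymond_step (hC : ConeIneq) {n : ℕ}
    (ih : ∀ L : Set (Fin n → ℝ), Good L →
      1 ≤ ((n.factorial : ℕ) : ENNReal) * volume L * volume (adual L))
    (L : Set (Fin (n + 1) → ℝ)) (hL : Good L) :
    1 ≤ (((n + 1).factorial : ℕ) : ENNReal) * volume L * volume (adual L) := by
  have hLg := hL
  obtain ⟨hcl, hconv, hnn, hdown, -, -⟩ := hL
  have hVpos : 0 < volume L := good_volume_pos L hLg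
  have hVtop : volume L < ⊤ := good_volume_lt_top L hLg
  have ha_top : ∀ i, volume (sec i L) < ⊤ :=
    fun i => good_volume_lt_top _ (sec_good i L hLg)
  have hcone : ∀ x ∈ L, ∑ i, ENNReal.ofReal (x i) * volume (sec i L)
      ≤ ((n + 1 : ℕ) : ENNReal) * volume L :=
    fun x hx => hC n L hcl.measurableSet hconv hnn x hx
  have hVr : 0 < (volume L).toReal := ENNReal.toReal_pos hVpos.ne' hVtop.ne
  have hn1 : (0 : ℝ) < (n : ℝ) + 1 := by positivity
  have hv : (fun i => (volume (sec i L)).toReal / (((n : ℝ) + 1) * (volume L).toReal))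
      ∈ adual L := by
    refine ⟨fun i => by positivity, fun x hx => ?_⟩
    have h1 := hcone x hx
    have hfin : ((n + 1 : ℕ) : ENNReal) * volume L ≠ ⊤ :=
      ENNReal.mul_ne_top (ENNReal.natCast_ne_top _) hVtop.ne
    have h2 := ENNReal.toReal_mono hfin h1
    rw [ENNReal.toReal_sum (fun i _ =>
      ENNReal.mul_ne_top ENNReal.ofReal_ne_top (ha_top i).ne)] at h2
    simp only [ENNReal.toReal_mul, ENNReal.toReal_natCast] at h2
    have h3 : ∑ i, x i * (volume (sec i L)).toReal
        ≤ ((n : ℝ) + 1) * (volume L).toReal := by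
      have e : ∑ i, x i * (volume (sec i L)).toReal
          = ∑ i, (ENNReal.ofReal (x i)).toReal * (volume (sec i L)).toReal := by
        refine Finset.sum_congr rfl fun i _ => ?_
        rw [ENNReal.toReal_ofReal (hnn x hx i)]
      rw [e]
      push_cast at h2
      exact h2
    have e2 : ∑ i, x i * ((volume (sec i L)).toReal / (((n : ℝ) + 1) * (volume L).toReal))
        = (∑ i, x i * (volume (sec i L)).toReal) / (((n : ℝ) + 1) * (volume L).toReal) := by
      rw [Finset.sum_div]
      refine Finset.sum_congr rfl fun i _ => ?_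
      ring
    rw [e2]
    exact (div_le_one (by positivity)).2 h3
  have hcone2 := hC n (adual L) (adual_isClosed L).measurableSet (adual_convex L)
    (fun y hy j => hy.1 j) _ hv
  have hih : ∀ i, 1 ≤ ((n.factorial : ℕ) : ENNReal) * volume (sec i L)
      * volume (sec i (adual L)) := by
    intro i
    have := ih (sec i L) (sec_good i L hLg)
    rw [← sec_adual i L hdown] at this
    exact this
  have hc0 : ((n + 1 : ℕ) : ENNReal) * volume L ≠ 0 := mul_ne_zero (by simp) hVpos.ne'
  have hctop : ((n + 1 : ℕ) : ENNReal) * volume L ≠ ⊤ :=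
    ENNReal.mul_ne_top (ENNReal.natCast_ne_top _) hVtop.ne
  have hofr : ∀ i, ENNReal.ofReal
      ((volume (sec i L)).toReal / (((n : ℝ) + 1) * (volume L).toReal))
      = volume (sec i L) / (((n + 1 : ℕ) : ENNReal) * volume L) := by
    intro i
    rw [ENNReal.ofReal_div_of_pos (by positivity), ENNReal.ofReal_toReal (ha_top i).ne,
      ENNReal.ofReal_mul (by positivity), ENNReal.ofReal_toReal hVtop.ne]
    congr 2
    rw [← Nat.cast_succ, ENNReal.ofReal_natCast]
  have hcone3 : ∑ i, volume (sec i L) / (((n + 1 : ℕ) : ENNReal) * volume L)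
      * volume (sec i (adual L)) ≤ ((n + 1 : ℕ) : ENNReal) * volume (adual L) := by
    have h := hcone2
    simp only [hofr] at h
    exact h
  have hsum : ∑ i, volume (sec i L) * volume (sec i (adual L))
      ≤ ((n + 1 : ℕ) : ENNReal) * volume (adual L)
        * (((n + 1 : ℕ) : ENNReal) * volume L) := by
    calc ∑ i, volume (sec i L) * volume (sec i (adual L))
        = (∑ i, volume (sec i L) / (((n + 1 : ℕ) : ENNReal) * volume L)
            * volume (sec i (adual L))) * (((n + 1 : ℕ) : ENNReal) * volume L) := by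
          rw [Finset.sum_mul]
          refine Finset.sum_congr rfl fun i _ => ?_
          rw [mul_right_comm, ENNReal.div_mul_cancel hc0 hctop]
      _ ≤ ((n + 1 : ℕ) : ENNReal) * volume (adual L)
          * (((n + 1 : ℕ) : ENNReal) * volume L) := by
          gcongr
  have h5 : ((n + 1 : ℕ) : ENNReal) ≤ ((n.factorial : ℕ) : ENNReal)
      * ∑ i, volume (sec i L) * volume (sec i (adual L)) := by
    rw [Finset.mul_sum]
    calc ((n + 1 : ℕ) : ENNReal) = ∑ _i : Fin (n + 1), (1 : ENNReal) := by simp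
      _ ≤ _ := Finset.sum_le_sum fun i _ => by simpa [mul_assoc] using hih i
  have h6 : ((n + 1 : ℕ) : ENNReal) * 1 ≤ ((n + 1 : ℕ) : ENNReal)
      * ((((n + 1).factorial : ℕ) : ENNReal) * volume L * volume (adual L)) := by
    calc ((n + 1 : ℕ) : ENNReal) * 1 = ((n + 1 : ℕ) : ENNReal) := mul_one _
      _ ≤ ((n.factorial : ℕ) : ENNReal)
          * ∑ i, volume (sec i L) * volume (sec i (adual L)) := h5
      _ ≤ ((n.factorial : ℕ) : ENNReal) * (((n + 1 : ℕ) : ENNReal) * volume (adual L)
          * (((n + 1 : ℕ) : ENNReal) * volume L)) := by gcongr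
      _ = ((n + 1 : ℕ) : ENNReal)
          * ((((n + 1).factorial : ℕ) : ENNReal) * volume L * volume (adual L)) := by
          rw [Nat.factorial_succ]
          push_cast
          ring
  exact (ENNReal.mul_le_mul_iff_right (by simp) (ENNReal.natCast_ne_top _)).1 h6

/-- **Saint-Raymond's lemma** for good sets. -/
theorem saint_raymond (hC : ConeIneq) : ∀ (n : ℕ) (L : Set (Fin n → ℝ)), Good L →
    1 ≤ ((n.factorial : ℕ) : ENNReal) * volume L * volume (adual L)
  | 0, L, hL => saint_raymond_zero L hL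
  | n + 1, L, hL => saint_raymond_step hC (saint_raymond hC n) L hL

end Vale.Agent.H67.LAB
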