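import Mathlib

/-!
# The Cauchy-Schwarz step over the sign patterns (P248, LAB project)

If `1 ≤ c * a s * b s` for every index `s`, then `N^2 ≤ c * (∑ a) * (∑ b)`, `N` the number of
indices; for the `2^n` sign patterns and `c = n!` this is `4^n ≤ n! * (∑ a) * (∑ b)`.
-/

namespace Vale.Agent.H67.LAB

theorem cs_real {ι : Type*} [Fintype ι] (α β : ι → ℝ) (c : ℝ) (hc : 0 < c)
    (hα : ∀ s, 0 ≤ α s) (hβ : ∀ s, 0 ≤ β s) (h : ∀ s, 1 ≤ c * α s * β s) :
    (Fintype.card ι : ℝ) ^ 2 ≤ c * (∑ s, α s) * (∑ s, β s) := by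
  have key : ∀ s t, (2 : ℝ) ≤ c * (α s * β t + α t * β s) := by
    intro s t
    have h1 := h s
    have h2 := h t
    have hx : 0 ≤ c * α s * β t := by have := hα s; have := hβ t; positivity
    have hy : 0 ≤ c * α t * β s := by have := hα t; have := hβ s; positivity
    have hxy : 1 ≤ (c * α s * β t) * (c * α t * β s) := by
      have e : (c * α s * β t) * (c * α t * β s) = (c * α s * β s) * (c * α t * β t) := by ring
      rw [e]
      have h3 : (0 : ℝ) ≤ c * α s * β s := by linarith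
      nlinarith
    nlinarith [sq_nonneg (c * α s * β t - c * α t * β s)]
  have e1 : (∑ s, α s) * (∑ t, β t) = ∑ s, ∑ t, α s * β t := Finset.sum_mul_sum _ _ _ _
  have e2 : (∑ s, α s) * (∑ t, β t) = ∑ s, ∑ t, α t * β s := by
    rw [e1, Finset.sum_comm]
  have h4 : ∑ _s : ι, ∑ _t : ι, (2 : ℝ) ≤ ∑ s, ∑ t, c * (α s * β t + α t * β s) :=
    Finset.sum_le_sum fun s _ => Finset.sum_le_sum fun t _ => key s t
  have e3 : ∑ s, ∑ t, c * (α s * β t + α t * β s)
      = 2 * (c * ((∑ s, α s) * (∑ t, β t))) := by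
    have : ∑ s, ∑ t, c * (α s * β t + α t * β s)
        = c * (∑ s, ∑ t, α s * β t) + c * (∑ s, ∑ t, α t * β s) := by
      rw [Finset.mul_sum, Finset.mul_sum, ← Finset.sum_add_distrib]
      refine Finset.sum_congr rfl fun s _ => ?_
      rw [Finset.mul_sum, Finset.mul_sum, ← Finset.sum_add_distrib]
      refine Finset.sum_congr rfl fun t _ => ?_
      ring
    rw [this, ← e1, ← e2]
    ring
  have e4 : ∑ _s : ι, ∑ _t : ι, (2 : ℝ) = 2 * (Fintype.card ι : ℝ) ^ 2 := by
    simp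
    ring
  rw [e3, e4] at h4
  nlinarith

theorem cs_signs (n : ℕ) (a b : (Fin n → Bool) → ENNReal)
    (h : ∀ s, 1 ≤ ((n.factorial : ℕ) : ENNReal) * a s * b s) :
    (4 : ENNReal) ^ n ≤ ((n.factorial : ℕ) : ENNReal) * (∑ s, a s) * (∑ s, b s) := by
  have ha0 : ∀ s, a s ≠ 0 := by
    intro s hs
    have := h s
    simp [hs] at this
  have hb0 : ∀ s, b s ≠ 0 := by
    intro s hs
    have := h s
    simp [hs] at this
  have hf0 : ((n.factorial : ℕ) : ENNReal) ≠ 0 := by
    simp [Nat.factorial_ne_zero]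
  have hA0 : ∑ s, a s ≠ 0 := by
    intro h0
    rw [Finset.sum_eq_zero_iff] at h0
    exact ha0 (fun _ => true) (h0 _ (Finset.mem_univ _))
  have hB0 : ∑ s, b s ≠ 0 := by
    intro h0
    rw [Finset.sum_eq_zero_iff] at h0
    exact hb0 (fun _ => true) (h0 _ (Finset.mem_univ _))
  by_cases hA : ∑ s, a s = ⊤
  · rw [hA, ENNReal.mul_top hf0, ENNReal.top_mul hB0]
    exact le_top
  by_cases hB : ∑ s, b s = ⊤
  · rw [hB, ENNReal.mul_top (mul_ne_zero hf0 hA0)]
    exact le_top
  have haf : ∀ s, a s ≠ ⊤ := fun s => ENNReal.sum_ne_top.1 hA s (Finset.mem_univ s)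
  have hbf : ∀ s, b s ≠ ⊤ := fun s => ENNReal.sum_ne_top.1 hB s (Finset.mem_univ s)
  have hreal := cs_real (fun s => (a s).toReal) (fun s => (b s).toReal) (n.factorial : ℝ)
    (by positivity) (fun s => ENNReal.toReal_nonneg) (fun s => ENNReal.toReal_nonneg)
    (by
      intro s
      have h1 := h s
      have hfin : ((n.factorial : ℕ) : ENNReal) * a s * b s ≠ ⊤ :=
        ENNReal.mul_ne_top (ENNReal.mul_ne_top (ENNReal.natCast_ne_top _) (haf s)) (hbf s)
      have h2 := ENNReal.toReal_mono hfin h1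
      simpa [ENNReal.toReal_mul] using h2)
  have hcard : (Fintype.card (Fin n → Bool) : ℝ) ^ 2 = (4 : ℝ) ^ n := by
    simp only [Fintype.card_pi, Fintype.card_bool, Finset.prod_const, Finset.card_univ,
      Fintype.card_fin]
    push_cast
    rw [← pow_mul, mul_comm, pow_mul]
    norm_num
  rw [hcard] at hreal
  have hfin : ((n.factorial : ℕ) : ENNReal) * (∑ s, a s) * (∑ s, b s) ≠ ⊤ :=
    ENNReal.mul_ne_top (ENNReal.mul_ne_top (ENNReal.natCast_ne_top _) hA) hB
  rw [← ENNReal.toReal_le_toReal (by simp) hfin]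
  simp only [ENNReal.toReal_mul, ENNReal.toReal_natCast, ENNReal.toReal_pow,
    ENNReal.toReal_ofNat]
  rw [ENNReal.toReal_sum (fun s _ => haf s), ENNReal.toReal_sum (fun s _ => hbf s)]
  exact hreal

end Vale.Agent.H67.LAB
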